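import Vale.Agent.P165.Power
import Vale.Agent.P165.Pairs.Main

namespace Vale.Agent.Results.P165.EdgeExpansion

open Vale.Agent.P165
open scoped MatrixGroups

theorem result :
    (∀ m : ℕ, 1 ≤ m → ∃ C : ℝ, 0 < C ∧ ∀ (d : ℕ) (h : ℝ) (V : Type) (G : SimpleGraph V),
      G.Connected → (∀ v, (G.neighborSet v).encard = d) → QuasiTransitive G → 0 < h →
      EdgeExpands G h → C * (d : ℝ) ^ (5 * m + 1) ≤ h ^ (6 * m) → pc G < pu G) ∧
    (∀ (d : ℕ) (h : ℝ), 0 < h → ∃ k₀ : ℕ, ∀ k ≥ k₀,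
      ∀ (W : Fin k → Type) (G : ∀ i, SimpleGraph (W i)),
      (∀ i, (G i).Connected) → (∀ i v, ((G i).neighborSet v).encard = d) →
      (∀ i, Expands (G i) h) → (∀ i, QuasiTransitive (G i)) →
      (prodGraph G).Connected ∧ QuasiTransitive (prodGraph G) ∧
        Expands (prodGraph G) h ∧ pc (prodGraph G) < pu (prodGraph G)) ∧
    (∀ (V : Type) (G : SimpleGraph V) (h : ℝ), 0 < h → G.Connected →
      (∀ v, (G.neighborSet v).Finite) → (∀ u v, ∃ φ : G ≃g G, φ u = v) → Expands G h →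
      ∃ k₀ : ℕ, ∀ k ≥ k₀, pc (powerGraph G k) < pu (powerGraph G k)) ∧
    (∀ L : ℕ, ∃ k₀ : ℕ, ∀ (Γ : Type) [Group Γ] (s : Set Γ), s.Finite → Subgroup.closure s = ⊤ →
      ∀ k ≥ k₀, s.ncard ≤ L * k → ∀ g : Fin k → Fin 2 → Γ, (∀ i t, g i t ∈ s) →
        (Function.Injective fun e : Fin k × (Fin 2 × Bool) =>
          bif e.2.2 then g e.1 e.2.1 else (g e.1 e.2.1)⁻¹) →
        (∀ i, Function.Injective (FreeGroup.lift fun t => g i t ^ 2)) →
        pc (SimpleGraph.mulCayley s) < pu (SimpleGraph.mulCayley s)) ∧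
    ∃ n₀ : ℕ, ∀ n ≥ n₀,
      let S : Set SL(n, ℤ) := {g | ∃ i j : Fin n, i ≠ j ∧ (g : Matrix (Fin n) (Fin n) ℤ) =
        Matrix.transvection i j 1}
      pc (SimpleGraph.mulCayley ((Subgroup.closure S).subtype ⁻¹' S)) <
        pu (SimpleGraph.mulCayley ((Subgroup.closure S).subtype ⁻¹' S)) :=
  ⟨nonuniqueness_of_edge_expansion, nonuniqueness_of_large_products,
    fun _ G h => nonuniqueness_of_large_powers G h, Pairs.pc_lt_pu_of_free_pairs,
    Pairs.pc_lt_pu_elementary⟩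

end Vale.Agent.Results.P165.EdgeExpansion
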