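import Vale.Agent.P165.EX.Lin.SpecialiseP
import Vale.Agent.P165.EX.Lin.SpanSemi
import Vale.Agent.P165.EX.Ker.Exponent
import Vale.Agent.P165.EX.Generation
import Vale.Agent.P165.EX.Chain
import Vale.Agent.P165.EX.Join.Linear

/-!
# The first question for graphs with an amenable by linear symmetry group, over any field
-/

namespace Vale.Agent.Results.P165.HighRankLattices

open Vale.Agent.P165 Matrix
open scoped MatrixGroups

theorem result :
    (∀ (V : Type) (G : SimpleGraph V), G.Connected → (∀ v, (G.neighborSet v).Finite) →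
      ∀ h : ℝ, 0 < h → Expands G h →
      ∀ (K : Type) [Field K] (n : ℕ) (Γ : Type) [Group Γ] (φ : Γ →* GL (Fin n) K),
      EX.Lin.Fol φ.ker → ∀ Φ : Γ →* (G ≃g G), (∀ v, {g | Φ g v = v}.Finite) →
      (∀ g v, Φ g v = v → φ g = 1 → g = 1) →
      ∀ R : Finset V, (∀ v, ∃ g, Φ g v ∈ R) → pc G < pu G) ∧
    (∀ (Γ : Type) [Group Γ] (K : Type) [Field K] (n : ℕ) (φ : Γ →* GL (Fin n) K),
      EX.NotVirtuallySolvable φ.range → PhaseQT Γ) ∧
    ∀ n : ℕ, 2 ≤ n → ∀ S : Set SL(n, ℤ), S.Finite → Subgroup.closure S = ⊤ →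
      pc (SimpleGraph.mulCayley S) < pu (SimpleGraph.mulCayley S) :=
  ⟨fun _ G hc hf _ hh he _ _ _ _ _ φ hN Φ hstab hkerfree R cover =>
      EX.Lin.phase_of_expands_any EX.Ker.phaseKernel EX.Lin.spanSemisimple EX.Lin.specialiseP φ hN G hc hf Φ hstab hkerfree R
        cover hh he,
    fun _ _ _ _ _ φ h => EX.Lin.phaseQT_linear_any EX.Ker.phaseKernel EX.Lin.spanSemisimple EX.Lin.specialiseP φ h,
    fun _ hn => EX.pc_lt_pu_int (EX.phaseSL hn) hn⟩

end Vale.Agent.Results.P165.HighRankLattices
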