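import Vale.Agent.P165.GL2.Linear
import Vale.Agent.P165.HY.Upper
import Vale.Agent.P165.HY.Sl2
import Vale.Agent.P165.Pad.Main

/-!
# Nonuniqueness for linear images of degree two and for four-ended hyperbolic actions

Every group with an image in `GL(2, K)`, for any field `K`, that is not virtually solvable has a
nonuniqueness phase; so does every group with a four-ended action on a hyperbolic space with packing.
-/

namespace Vale.Agent.Results.P165.LinearImages

open Vale.Agent.P165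
open scoped MatrixGroups UpperHalfPlane

theorem result :
    (∀ (Γ V X : Type) [Group Γ] [PseudoMetricSpace X] (G : SimpleGraph V), G.Connected →
      (∀ v, (G.neighborSet v).Finite) → ∀ (Φ : Γ →* (G ≃g G)) (R : Finset V),
      (∀ v, ∃ g, Φ g v ∈ R) → ∀ (δ : ℝ), 0 ≤ δ → HY.Hyp X δ → HY.Packing X →
      ∀ (act : Γ →* Equiv.Perm X), (∀ γ x y, dist (act γ x) (act γ y) = dist x y) →
      ∀ (pos : V → X), (∀ γ v, pos (Φ γ v) = act γ (pos v)) →
      ∀ o : X, HY.FourEnds act o → pc G < pu G) ∧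
    (∀ (Γ X : Type) [Group Γ] [PseudoMetricSpace X] (δ : ℝ), 0 ≤ δ → HY.Hyp X δ → HY.Packing X →
      ∀ (act : Γ →* Equiv.Perm X), (∀ γ x y, dist (act γ x) (act γ y) = dist x y) →
      ∀ o : X, HY.FourEnds act o → PhaseQT Γ) ∧
    (∀ (Γ W : Type) [Group Γ] (H : SimpleGraph W), H.Connected → ∀ (δ D : ℕ), HY.GraphHyp H δ →
      (∀ x, (H.neighborSet x).Finite ∧ (H.neighborSet x).ncard ≤ D) →
      ∀ (act : Γ →* (H ≃g H)) (o : W), SG.FourEnds H act o → PhaseQT Γ) ∧
    (∀ (Γ K : Type) [Group Γ] [Field K] (φ : Γ →* GL (Fin 2) K),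
      (∀ H : Subgroup Γ, H.FiniteIndex → ¬ Group.IsSolvable (H.map φ)) → PhaseQT Γ) ∧
    ∀ (Γ : Type) [Group Γ] (π : Γ →* SL(2, ℤ√2)), Function.Surjective π → PhaseQT Γ := by
  have hlog : (0 : ℝ) ≤ Real.log 16 := Real.log_nonneg (by norm_num)
  refine ⟨fun Γ V X _ _ G hG hf Φ R cover δ hδ hyp hp act isom pos hpos o h => ?_,
    fun Γ X _ _ δ hδ hyp hp act isom o h =>
      phaseQT_of_nonuniquePhase (HY.nonuniquePhase_of_fourEnds hδ hyp hp act isom o h),
    fun Γ W _ H hc δ D hh hD act o h =>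
      phaseQT_of_nonuniquePhase (HY.nonuniquePhase_of_graph hc hh hD act o h),
    fun Γ K _ _ φ h => phaseQT_of_nonuniquePhase (GL2.nonuniquePhase_of_image φ h),
    fun Γ _ π hπ => phaseQT_of_nonuniquePhase ?_⟩
  · obtain ⟨W, H, d, Ψ, R', ρ, hH, hd, hR, hρ, -, hpc, hpu⟩ :=
      Pad.exists_regular hG hf Φ R cover
    rw [← hpc, ← hpu]
    exact HY.pc_lt_pu_of_fourEnds hH hd Ψ R' hR hδ hyp hp act isom (pos ∘ ρ)
      (fun γ x => by rw [Function.comp_apply, hρ, hpos]; rfl) o h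
  · obtain ⟨g, hg⟩ := hπ HY.Mat.gEx
    obtain ⟨h, hh⟩ := hπ HY.Mat.hEx
    obtain ⟨t1, t2, t3⟩ := HY.Mat.example_traces
    refine HY.nonuniquePhase_of_fourEnds hlog HY.Upper.hyp HY.Upper.packing _
      (HY.Mat.planeAct_isom (HY.Mat.place.comp π)) _
      (HY.Mat.fourEnds_planeAct (HY.Mat.place.comp π) g h ?_ ?_ ?_)
    · simpa [hg] using t1
    · simpa [hh] using t2
    · simpa [hg, hh] using t3

end Vale.Agent.Results.P165.LinearImages
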