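import Vale.Agent.P165.QT.Main
import Vale.Agent.P165.QT.Models
import Vale.Agent.P165.QT.QuasiTree
import Vale.Agent.P165.TR.EndsOf
import Vale.Agent.P165.TR.HNN
import Vale.Agent.P165.Pad.Main

/-!
# Nonuniqueness for every group with a four-ended action on a graph with the bottleneck property
-/

namespace Vale.Agent.Results.P165.QuasiTreeActions

open Vale.Agent.P165

theorem result :
    (∀ (Γ V X : Type) [Group Γ] (G : SimpleGraph V), G.Connected →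
      (∀ v, (G.neighborSet v).Finite) → ∀ (Φ : Γ →* (G ≃g G)) (R : Finset V),
      (∀ v, ∃ g, Φ g v ∈ R) → ∀ (H : SimpleGraph X), H.Connected → ∀ (Δ : ℕ), QT.Bottleneck H Δ →
      ∀ (act : Γ →* (H ≃g H)) (pos : V → X), (∀ γ v, pos (Φ γ v) = act γ (pos v)) →
      ∀ o : X, SG.FourEnds H act o → pc G < pu G) ∧
    (∀ (Γ X : Type) [Group Γ] (H : SimpleGraph X), H.Connected → ∀ (Δ : ℕ), QT.Bottleneck H Δ →
      ∀ (act : Γ →* (H ≃g H)) (o : X), SG.FourEnds H act o → PhaseQT Γ) ∧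
    (∀ (Γ X : Type) [Group Γ] (H : SimpleGraph X), H.Connected → QT.QuasiTree H →
      ∀ (act : Γ →* (H ≃g H)) (o : X), SG.FourEnds H act o → PhaseQT Γ) ∧
    (∀ (Γ X : Type) [Group Γ] (T : SimpleGraph X), T.IsTree → ∀ (act : Γ →* (T ≃g T)) (o : X),
      SG.FourEnds T act o → PhaseQT Γ) ∧
    (∀ (Γ X : Type) [Group Γ] (f : Γ →* FreeGroup X), (∃ g h : Γ, f g * f h ≠ f h * f g) →
      PhaseQT Γ) ∧
    (∀ (Γ G : Type) [Group Γ] [Group G] (A B : Subgroup G) (φ : A ≃* B), A ≠ ⊤ → B ≠ ⊤ →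
      ∀ π : Γ →* HNNExtension G A B φ, Function.Surjective π → PhaseQT Γ) ∧
    ∀ (m : ℕ), 1 ≤ m → ∀ (W : Fin m → Type) (H : ∀ t, SimpleGraph (W t)), (∀ t, (H t).IsTree) →
      (∀ t x, ((H t).neighborSet x).Finite) → (∀ t x, 3 ≤ ((H t).neighborSet x).ncard) →
      ∀ (Λ : Type) [Group Λ] (act : ∀ t, Λ →* (H t ≃g H t)),
        (∀ (g : Λ) (x : ∀ t, W t), (∀ t, act t g (x t) = x t) → g = 1) →
        (∃ R : Finset (∀ t, W t), ∀ x : ∀ t, W t, ∃ g, ∃ r ∈ R, ∀ t, act t g (r t) = x t) →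
      PhaseQT Λ := by
  classical
  have tree : ∀ (Γ X : Type) [Group Γ] (T : SimpleGraph X), T.IsTree →
      ∀ (act : Γ →* (T ≃g T)) (o : X), SG.FourEnds T act o → SG.NonuniquePhase Γ :=
    fun Γ X _ T hT act o h =>
      QT.nonuniquePhase_of_fourEnds hT.connected (QT.bottleneck_of_tree hT) act o h
  refine ⟨fun Γ V X _ G hG hf Φ R cover H hH Δ hB act pos hpos o h => ?_,
    fun Γ X _ H hH Δ hB act o h =>
      phaseQT_of_nonuniquePhase (QT.nonuniquePhase_of_fourEnds hH hB act o h),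
    fun Γ X _ H hH hq act o h => phaseQT_of_nonuniquePhase ?_,
    fun Γ X _ T hT act o h => phaseQT_of_nonuniquePhase (tree Γ X T hT act o h),
    fun Γ X _ f hf => phaseQT_of_nonuniquePhase ?_,
    fun Γ G _ _ A B φ hA hB π hπ => phaseQT_of_nonuniquePhase ?_,
    fun m hm W H hT hfin hdeg Λ _ act hfree hcof => phaseQT_of_nonuniquePhase ?_⟩
  · obtain ⟨U, G', d, Ψ, R', ρ, hU, hd, hR, hρ, -, hpc, hpu⟩ :=
      Pad.exists_regular hG hf Φ R cover
    rw [← hpc, ← hpu]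
    exact QT.pc_lt_pu_of_fourEnds hU hd Ψ R' hR hH hB act (pos ∘ ρ)
      (fun γ x => by rw [Function.comp_apply, hρ, hpos]; rfl) o h
  · obtain ⟨Δ, hB⟩ := QT.bottleneck_of_quasiTree hH hq
    exact QT.nonuniquePhase_of_fourEnds hH hB act o h
  · exact tree _ _ _ SG.isTree_ftree _ _ (TR.fourEnds_free_image f hf)
  · obtain ⟨W, T, f, o, hT, h⟩ := TR.HNN.fourEnds_hnn φ hA hB π hπ
    exact tree _ _ T hT f o h
  · obtain ⟨o, h⟩ := QT.fourEnds_lattice m W H hT hfin hdeg Λ act hfree hcof ⟨0, hm⟩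
    exact tree _ _ _ (hT _) _ o h

end Vale.Agent.Results.P165.QuasiTreeActions
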